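import Vale.Agent.P022.H853.L3.Gen
import Vale.Agent.P022.H431.Sv.Defs

/-!
# P022-L3, layer [SOLV]: block [QUAD] (helper279)

The quadratic fields unramified outside `{2, 3}` are `ℚ(√d)`, `d = -1, ±2, ±3, ±6`.
-/

open NumberField Matrix

noncomputable section

namespace Vale.Agent.P022.H279.Sv

open Vale.Agent.P022 Vale.Agent.P022.H916

/-- a natural number whose prime factors divide `6` is `1, 2, 3` or `6` times a square -/
theorem exists_nat (n : ℕ) (h : ∀ ℓ : ℕ, ℓ.Prime → ℓ ∣ n → ℓ ∣ 6) :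
    ∃ a b : ℕ, b ^ 2 * a = n ∧ (a = 1 ∨ a = 2 ∨ a = 3 ∨ a = 6) := by
  obtain ⟨a, b, hab, hsf⟩ := Nat.sq_mul_squarefree n
  refine ⟨a, b, hab, ?_⟩
  have h1 : a.primeFactors ⊆ (6 : ℕ).primeFactors := by
    intro p hp
    rw [Nat.mem_primeFactors] at hp ⊢
    exact ⟨hp.1, h p hp.1 (hab ▸ Dvd.dvd.mul_left hp.2.1 _), by norm_num⟩
  have h2 : a ∣ 6 := by
    rw [← Nat.prod_primeFactors_of_squarefree hsf]
    exact (Finset.prod_dvd_prod_of_subset _ _ _ h1).trans (Nat.prod_primeFactors_dvd 6)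
  have h3 : a ≤ 6 := Nat.le_of_dvd (by norm_num) h2
  interval_cases a <;> revert h2 <;> decide

/-- an integer whose prime factors are `2` and `3` is `d` times a square, `d = ±1, ±2, ±3, ±6` -/
theorem exists_int (D : ℤ) (h0 : D ≠ 0) (h : ∀ ℓ : ℕ, ℓ.Prime → (ℓ : ℤ) ∣ D → ℓ ∣ 6) :
    ∃ d m : ℤ, m ≠ 0 ∧ D = d * m ^ 2 ∧
      (d = 1 ∨ d ∈ ({-1, 2, -2, 3, -3, 6, -6} : Finset ℤ)) := by
  obtain ⟨a, b, hab, ha⟩ := exists_nat D.natAbs (fun ℓ hℓ hd => h ℓ hℓ (Int.natCast_dvd.2 hd))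
  have hb : (b : ℤ) ≠ 0 := by
    rintro hb
    have hb' : b = 0 := by exact_mod_cast hb
    rw [hb'] at hab
    have : D.natAbs = 0 := by rw [← hab]; ring
    exact h0 (Int.natAbs_eq_zero.1 this)
  have hab' : (D.natAbs : ℤ) = (b : ℤ) ^ 2 * a := by
    rw [← hab]
    push_cast
    ring
  rcases Int.natAbs_eq D with hD | hD
  · refine ⟨a, b, hb, by rw [hD, hab']; ring, ?_⟩
    rcases ha with rfl | rfl | rfl | rfl <;> simp
  · refine ⟨-a, b, hb, by rw [hD, hab']; ring, ?_⟩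
    rcases ha with rfl | rfl | rfl | rfl <;> simp

/-- **[QUAD]** the quadratic fields unramified outside `2` and `3` -/
theorem quad : Sv.QuadStmt := by
  intro M hM hi hun
  have hn : M.Normal := Subgroup.normal_of_index_eq_two hi
  let j : ℚ →+* Qb := algebraMap ℚ Qb
  have htop : GK j = ⊤ := by
    rw [eq_top_iff]
    intro g _ x
    exact g.commutes x
  obtain ⟨L, iF, iN, iA, iG, jL, ρ, D, hGK, hker⟩ := exists_fld j M hM (by rw [htop]; exact le_top)
    (fun g _ u hu => hn.conj_mem u hu g)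
  have hcanon : iA = DivisionRing.toRatAlgebra := Subsingleton.elim _ _
  subst hcanon
  have h2 : Module.finrank ℚ L = 2 := by
    rw [← IsGalois.card_aut_eq_finrank]
    have e1 : ρ.ker = M.subgroupOf (GK j) := by
      ext g
      rw [MonoidHom.mem_ker, hker g, Subgroup.mem_subgroupOf]
    have e2 := Subgroup.index_ker ρ
    rw [e1, MonoidHom.range_eq_top.2 D.surj, Subgroup.card_top] at e2
    rw [← e2]
    show M.relIndex (GK j) = 2
    rw [htop, Subgroup.relIndex_top_right, hi]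
  have hprime : ∀ ℓ : ℕ, ℓ.Prime → (ℓ : ℤ) ∣ discr L → ℓ ∣ 6 := by
    intro ℓ hℓ hd
    by_contra h6
    obtain ⟨Q, hQ, hℓQ⟩ := exists_prime hℓ
    obtain ⟨g, hg, hgU⟩ := exists_inertia jL h2 hd hQ hℓQ
    rw [hGK] at hgU
    exact hgU (hun ℓ hℓ h6 Q hQ hℓQ g hg)
  obtain ⟨d, m, hm, hD, hd⟩ := exists_int (discr L) (discr_ne_zero L) hprime
  obtain ⟨B⟩ := H724.exists_qb h2
  have hm' : (m : L) ≠ 0 := by exact_mod_cast hm
  have hδ : ((B.δ : 𝓞 L) : L) ^ 2 = (d : L) * (m : L) ^ 2 := by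
    have e2 := congrArg (fun z : 𝓞 L => (z : L)) B.δ_sq
    rw [hD] at e2
    simpa using e2
  have hs2 : (((B.δ : 𝓞 L) : L) / m) ^ 2 = (d : L) := by
    rw [div_pow, hδ]
    field_simp
  have hint : IsIntegral ℤ (((B.δ : 𝓞 L) : L) / m) := by
    refine IsIntegral.of_pow (n := 2) (by norm_num) ?_
    rw [hs2]
    exact isIntegral_algebraMap (x := d)
  refine ⟨L, iF, iN, jL, ⟨((B.δ : 𝓞 L) : L) / m, hint⟩, d, hGK, h2, ?_, ?_⟩
  · rcases hd with rfl | hd
    · exfalso
      have e1 : (B.δ - (m : 𝓞 L)) * (B.δ + (m : 𝓞 L)) = 0 := by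
        have e2 := B.δ_sq
        rw [hD] at e2
        have e3 : (((1 : ℤ) * m ^ 2 : ℤ) : 𝓞 L) = (m : 𝓞 L) ^ 2 := by
          push_cast
          ring
        rw [e3] at e2
        linear_combination e2
      rcases mul_eq_zero.1 e1 with h | h
      · have := B.ind (-B.q - m) 2 (by
          rw [H724.QB.δ] at h
          push_cast at h ⊢
          linear_combination h)
        exact absurd this.2 (by norm_num)
      · have := B.ind (-B.q + m) 2 (by
          rw [H724.QB.δ] at h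
          push_cast at h ⊢
          linear_combination h)
        exact absurd this.2 (by norm_num)
    · exact hd
  · apply RingOfIntegers.ext
    have e1 : ((d : 𝓞 L) : L) = (d : L) := map_intCast _ d
    rw [e1]
    exact hs2

end Vale.Agent.P022.H279.Sv
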